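import Vale.Agent.P141.H54.RawA
import Vale.Agent.P141.H677.GenM

/-!
# P141, line (A): the raw shape of the deviation numbers, real numbers

* `ds_raw` : the raw shape from the blind and the signed bound of the deviations (one constant in
  front of everything, `m = P / (2 l)`, `v = V / (2 l)`);
* `lam_num` : the fibre number over the gap.
-/

namespace Vale.Agent.P141.H54

open Vale.Agent.P141.H677.Sk (Raw lam1)

theorem ds_blind {L : ℕ} {m v e S F M : ℝ} (he : 0 ≤ e) (hS : 0 ≤ S) (hM : 0 ≤ M) (hF : 0 ≤ F)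
    (hm : m ≤ M) (hv : v / 2 ^ L ≤ F) :
    3 * (e * ((48 + 16 * (L : ℝ) ^ 3) * m + 128 * (((L : ℝ) + 2) ^ 2 + 2) / 2 ^ L * v) * S) ≤
      e * S * ((1 + (L : ℝ)) ^ 3 * (5184 * M + 5184 * F)) := by
  have hL : (0 : ℝ) ≤ L := Nat.cast_nonneg L
  have h1 : (48 + 16 * (L : ℝ) ^ 3) * m ≤ 48 * (1 + (L : ℝ)) ^ 3 * M := by
    refine (mul_le_mul_of_nonneg_left hm (by positivity)).trans ?_
    refine mul_le_mul_of_nonneg_right ?_ hM
    nlinarith [pow_nonneg hL 3, pow_nonneg hL 2]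
  have h2 : 128 * (((L : ℝ) + 2) ^ 2 + 2) / 2 ^ L * v ≤ 768 * (1 + (L : ℝ)) ^ 3 * F := by
    have e1 : 128 * (((L : ℝ) + 2) ^ 2 + 2) / 2 ^ L * v =
        128 * (((L : ℝ) + 2) ^ 2 + 2) * (v / 2 ^ L) := by ring
    rw [e1]
    refine (mul_le_mul_of_nonneg_left hv (by positivity)).trans ?_
    refine mul_le_mul_of_nonneg_right ?_ hF
    nlinarith [pow_nonneg hL 3, pow_nonneg hL 2]
  have h3 : e * S * ((48 + 16 * (L : ℝ) ^ 3) * m +
      128 * (((L : ℝ) + 2) ^ 2 + 2) / 2 ^ L * v) ≤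
      e * S * (48 * (1 + (L : ℝ)) ^ 3 * M + 768 * (1 + (L : ℝ)) ^ 3 * F) :=
    mul_le_mul_of_nonneg_left (add_le_add h1 h2) (by positivity)
  have h4 : 0 ≤ e * S * (1 + (L : ℝ)) ^ 3 * M := by positivity
  have h5 : 0 ≤ e * S * (1 + (L : ℝ)) ^ 3 * F := by positivity
  nlinarith

theorem ds_signed {L : ℕ} {v e S F G δ E Θ a : ℝ} (he : 0 ≤ e) (hS : 0 ≤ S) (hδ : 0 < δ)
    (ha : 1 ≤ a) (hE : 0 ≤ E) (hG : v * (E / δ) ≤ G) (hF : v * ((1 + Θ / δ) / 2 ^ L) ≤ F) :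
    5184 * e * (1 + (L : ℝ)) ^ 3 * (S * (δ + v * (E / δ + (1 + Θ / δ) / 2 ^ L))) ≤
      e * S * ((1 + (L : ℝ)) ^ 3 * (5184 * a * δ + 5184 * G + 5184 * a * E + 5184 * F)) := by
  have hL : (0 : ℝ) ≤ L := Nat.cast_nonneg L
  have h0 : 0 ≤ e * S * (1 + (L : ℝ)) ^ 3 := by positivity
  have h1 : δ + v * (E / δ + (1 + Θ / δ) / 2 ^ L) ≤ a * δ + G + a * E + F := by
    have h2 : δ ≤ a * δ := le_mul_of_one_le_left hδ.le ha
    have h3 : 0 ≤ a * E := mul_nonneg (by linarith) hE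
    rw [mul_add]
    linarith
  have h4 := mul_le_mul_of_nonneg_left h1 h0
  calc _ = 5184 * (e * S * (1 + (L : ℝ)) ^ 3 * (δ + v * (E / δ + (1 + Θ / δ) / 2 ^ L))) := by ring
    _ ≤ 5184 * (e * S * (1 + (L : ℝ)) ^ 3 * (a * δ + G + a * E + F)) :=
      mul_le_mul_of_nonneg_left h4 (by norm_num)
    _ = _ := by ring

/-- **The raw shape of the deviations.** -/
theorem ds_raw {b y e0 κ E e S X m v Θ a : ℝ} (hy : 0 < y) (hy1 : y ≤ 1) (hb : 0 ≤ b)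
    (hE : 0 ≤ E) (he : 0 ≤ e) (hS : 0 ≤ S) (hκ : 0 ≤ κ) (ha : 1 ≤ a) (hm : m ≤ a * (b * y ^ e0))
    (hv : v ≤ y ^ (-10 : ℝ)) (hΘ0 : 0 ≤ Θ) (hΘ : Θ ≤ y ^ (-2 : ℝ))
    (h1 : ∀ L : ℕ, X ≤ 3 * (e * ((48 + 16 * (L : ℝ) ^ 3) * m +
      128 * (((L : ℝ) + 2) ^ 2 + 2) / 2 ^ L * v) * S))
    (h2 : ∀ (L : ℕ) (δ : ℝ), 0 < δ → X ≤ 5184 * e * (1 + (L : ℝ)) ^ 3 *
      (S * (δ + v * (E / δ + (1 + Θ / δ) / 2 ^ L)))) :
    Raw 3 12 12 (5184 * (1 + ((30 : ℕ) : ℝ)) ^ (2 * 3) * (5184 * a)) b y e0 κ E (e * S) X := by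
  have h10 : 0 < y ^ (-10 : ℝ) := Real.rpow_pos_of_pos hy _
  have h12 : 0 < y ^ (-12 : ℝ) := Real.rpow_pos_of_pos hy _
  have hle : y ^ (-10 : ℝ) ≤ y ^ (-12 : ℝ) :=
    Real.rpow_le_rpow_of_exponent_ge hy hy1 (by norm_num)
  have hmul : y ^ (-10 : ℝ) * y ^ (-2 : ℝ) = y ^ (-12 : ℝ) := by
    rw [← Real.rpow_add hy]
    norm_num
  have hκ1 : 1 ≤ (1 + κ) ^ 2 := one_le_pow₀ (by linarith)
  refine raw_absorb (c := 5184) hy (by linarith) hb hE (by positivity) (by norm_num) 30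
    (by norm_num) (fun L => ?_) (fun L δ hδ => ?_)
  · have hye : 0 < y ^ e0 := Real.rpow_pos_of_pos hy _
    have hF : v / 2 ^ L ≤ (1 + κ) ^ 2 * y ^ (-12 : ℝ) / 2 ^ L := by
      refine div_le_div_of_nonneg_right ?_ (by positivity)
      exact (hv.trans hle).trans (le_mul_of_one_le_left h12.le hκ1)
    refine (h1 L).trans ((ds_blind he hS (by positivity) (by positivity) hm hF).trans ?_)
    refine le_of_eq ?_
    ring
  · have hG : v * (E / δ) ≤ y ^ (-12 : ℝ) * E / δ := by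
      rw [mul_div_assoc]
      exact mul_le_mul_of_nonneg_right (hv.trans hle) (by positivity)
    have hF : v * ((1 + Θ / δ) / 2 ^ L) ≤
        (1 + κ) ^ 2 * y ^ (-12 : ℝ) * (1 + 1 / δ) / 2 ^ L := by
      rw [← mul_div_assoc]
      refine div_le_div_of_nonneg_right ?_ (by positivity)
      have t1 : v * (1 + Θ / δ) ≤ y ^ (-12 : ℝ) * (1 + 1 / δ) := by
        have t2 : v * (Θ / δ) ≤ y ^ (-12 : ℝ) * (1 / δ) := by
          rw [← hmul, mul_div_assoc', mul_one_div]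
          refine div_le_div_of_nonneg_right ?_ hδ.le
          exact mul_le_mul hv hΘ hΘ0 h10.le
        have t3 : v ≤ y ^ (-12 : ℝ) := hv.trans hle
        rw [mul_add, mul_add, mul_one, mul_one]
        exact add_le_add t3 t2
      refine t1.trans ?_
      rw [mul_assoc]
      exact le_mul_of_one_le_left (by positivity) hκ1
    exact (h2 L δ hδ).trans (ds_signed he hS hδ ha hE hG hF)

/-- the fibre number over the gap -/
theorem lam_num {q : H401.Num} {s r : ℝ} (ht : 0 < q.t) (ht1 : q.t ≤ 1) (he : 0 ≤ q.e0)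
    (hs : 0 < s) (hr : 1 ≤ r) : 2 * lam1 q s r / (2 * q.lam s r) ≤ (q.t / r) ^ (-10 : ℝ) := by
  have hr0 : 0 < r := by linarith
  have hS : 0 < √s := Real.sqrt_pos.2 hs
  have hl : 0 < q.lam s r := H401.Num.lam_pos ht hs hr
  rw [mul_div_mul_left _ _ (by norm_num : (2 : ℝ) ≠ 0), div_le_iff₀ hl]
  unfold H677.Sk.lam1 H401.Num.lam
  have e1 : (q.t / r) ^ (-10 : ℝ) = q.t ^ (-10 : ℝ) * r ^ (10 : ℝ) := by
    rw [Real.div_rpow ht.le hr0.le, Real.rpow_neg hr0.le (10 : ℝ), div_inv_eq_mul]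
  rw [e1]
  have e2 : q.t ^ (-10 : ℝ) * r ^ (10 : ℝ) * (q.t ^ (2 - q.e0) * √s * r ^ q.e0) =
      q.t ^ (-8 - q.e0) * √s * r ^ (10 + q.e0) := by
    have a1 : q.t ^ (-8 - q.e0) = q.t ^ (-10 : ℝ) * q.t ^ (2 - q.e0) := by
      rw [← Real.rpow_add ht]
      congr 1
      ring
    rw [a1, Real.rpow_add hr0]
    ring
  rw [e2]
  have h1 : q.t ^ (-8 : ℝ) ≤ q.t ^ (-8 - q.e0) :=
    Real.rpow_le_rpow_of_exponent_ge ht ht1 (by linarith)
  have h2 : r ^ (8 : ℝ) ≤ r ^ (10 + q.e0) := Real.rpow_le_rpow_of_exponent_le hr (by linarith)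
  have h3 : 0 < q.t ^ (-8 : ℝ) := Real.rpow_pos_of_pos ht _
  have h4 : 0 < r ^ (8 : ℝ) := Real.rpow_pos_of_pos hr0 _
  exact mul_le_mul (mul_le_mul_of_nonneg_right h1 hS.le) h2 h4.le
    (mul_nonneg (h3.le.trans h1) hS.le)

end Vale.Agent.P141.H54
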