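import Vale.Agent.P141.H54.EndN
import Vale.Agent.P141.H54.RawA2
import Vale.Agent.P141.H124.DevW

/-!
# P141, line (A): the fields `af`, `afL` of the slot numbers

* `af_core` : the points over a packed family, slot of the scale `k + c`, raw shape;
* `fld_af : RawField FAf`, `fld_afL : RawField FAfL`.
-/

namespace Vale.Agent.P141.H54

open Finset Matrix
open Vale.Agent.P141.PL (Pt iv ix mem_iv cb mem_cb cx card_iv ix_ix)
open Vale.Agent.P141.PL.H315 (Tri)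
open Vale.Agent.P141.H43 (nsq nsq_nonneg)
open Vale.Agent.P141.H460 (GPack)
open Vale.Agent.P141.H677 (rt kF)
open Vale.Agent.P141.H677.Sk

noncomputable section

open scoped Classical

set_option linter.unusedSectionVars false

/-- the constant of the class -/
def cAf (p : H401.Num) : ℝ :=
  42 * (1 + ((30 : ℕ) : ℝ)) ^ (2 * (3 + 1)) *
    (2 * (5184 * (1 + ((30 : ℕ) : ℝ)) ^ (2 * 3) * (5184 * p.L)) + 16 * (2 * p.L))

variable {ι : Type} [Fintype ι] [DecidableEq ι]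

variable {q : H401.Num} {n : ℕ} {ez : ℝ} {F1 F2 F3 : ℕ → Pt → ℝ} {o : ℤ} {K : ℕ} {x : Pt}
  {s r : ℝ} {U : Tri} {g : ℤ → ℤ → ℝ} {u v : ℤ → ℤ → ι → ℝ} {A : FamA} {b C : FamV ι}
  {R : Slt ι} {κ E : ℝ}

/-- **The points over a packed family, slot of the scale `k + c`.** -/
theorem af_core (hS : SDat q n ez F1 F2 F3 o K x s r U g u v A b C R κ E) (h : Pt)
    {S Q : ℕ → Pt → Prop} {P : ℝ} (hP : 0 ≤ P) (hQ : GPack Q K P)
    (hSQ : ∀ k < K, ∀ y : Pt, S k y → Q k (cx k y)) (c N : ℕ) (hN : N ≤ K)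
    (hc : ∀ k < N, k + c ≤ K) :
    Raw (3 + 1) 12 12 (cAf (cst q)) (q.t ^ (-q.c)) (q.t / r) q.e0 κ E (ez * s * 8 ^ K)
      ((∑ t ∈ rt (cx K x), ∑ x0 ∈ iv K t, ∑ k ∈ range N, ∑ x' ∈ iv K (cx K x).1,
        ∑ z ∈ iv K (cx K x).2.2, (if S k (x0, x', z) then
          nsq (av R h.2.2 x0 (k + c) z x' *ᵥ C x0 (k + 1) z x') else 0)) / (1 + P)) := by
  obtain ⟨Q1, Q2, Q3, v', D⟩ := hS.dat
  have hr0 : 0 < r := by linarith [hS.r1]
  have hy : 0 < q.t / r := div_pos hS.t0 hr0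
  have hy1 : q.t / r ≤ 1 := by
    rw [div_le_one hr0]
    linarith [hS.t1, hS.r1]
  have hb : 0 ≤ q.t ^ (-q.c) := Real.rpow_nonneg hS.t0.le _
  have hez : 0 ≤ ez := hS.hF2.1
  have hs0 : 0 ≤ s := hS.s0.le
  have hL0 : 0 < q.L := by linarith [hS.L1]
  have hD0 : 0 ≤ ez * s * 8 ^ K := by positivity
  have hS0 : 0 ≤ s * 8 ^ K := by positivity
  have hl : 0 < q.lam s r := H401.Num.lam_pos hS.t0 hS.s0 hS.r1
  have hl1 : 0 ≤ lam1 q s r := by
    unfold H677.Sk.lam1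
    have h1 : 0 < q.t ^ (-8 : ℝ) := Real.rpow_pos_of_pos hS.t0 _
    have h2 : 0 < r ^ (8 : ℝ) := Real.rpow_pos_of_pos hr0 _
    positivity
  have hPP : 0 ≤ q.L * q.t ^ (2 - q.c) * √s := by
    have := Real.rpow_pos_of_pos hS.t0 (2 - q.c)
    positivity
  have hye : 0 < (q.t / r) ^ q.e0 := Real.rpow_pos_of_pos hy _
  -- the deviations
  set DS : ℝ := ∑ t ∈ rt (cx K x), ∑ x1 ∈ iv K (cx K x).1, ∑ x3 ∈ iv K (cx K x).2.2,
    ∑ k ∈ range N, ∑ x0 ∈ iv K t, kF q.Lm U.2.1 K F2 (k + 1) (x0, x1, x3) ^ 2 *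
      nsq ((av R h.2.2 x0 (k + c) x3 x1 - R x0 (k + c) x3 x1) *ᵥ v' x1 x3) with hDSd
  have hm : q.L * q.t ^ (2 - q.c) * √s / (2 * q.lam s r) ≤
      q.L * (q.t ^ (-q.c) * (q.t / r) ^ q.e0) := by
    rw [m_eq hS.t0 hS.s0 hS.r1]
    have : 0 ≤ q.L * (q.t ^ (-q.c) * (q.t / r) ^ q.e0) := by positivity
    linarith
  have hΘ : (r / q.t) ^ 2 / 2 ≤ (q.t / r) ^ (-2 : ℝ) := by
    have e2 : (q.t / r) ^ (-2 : ℝ) = (r / q.t) ^ 2 := by
      rw [Real.rpow_neg hy.le, ← Real.inv_rpow hy.le, inv_div]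
      norm_num
    rw [e2]
    have : 0 ≤ (r / q.t) ^ 2 := sq_nonneg _
    linarith
  have hDS : Raw 3 12 12 (5184 * (1 + ((30 : ℕ) : ℝ)) ^ (2 * 3) * (5184 * q.L)) (q.t ^ (-q.c))
      (q.t / r) q.e0 κ E (ez * (s * 8 ^ K)) DS := by
    refine ds_raw (m := q.L * q.t ^ (2 - q.c) * √s / (2 * q.lam s r))
      (v := 2 * lam1 q s r / (2 * q.lam s r)) (Θ := (r / q.t) ^ 2 / 2) hy hy1 hb hS.E0.le hez
      hS0 (by linarith [hS.κ1]) hS.L1 hm (lam_num hS.t0 hS.t1 hS.e00.le hS.s0 hS.r1)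
      (by positivity) hΘ (fun L => ?_) (fun L δ hδ => ?_)
    · refine (H124.dev_blind D hS.cls hl hPP hl1 hS.ho hS.hK hez hS.slt c N hN hc h.2.2 L).trans
        (le_of_eq ?_)
      ring
    · refine (H124.dev_signed D hS.cls hS.t0 hl (lam_row hS.t0 hS.t1 hS.e00 hS.s0 hS.r1 hS.e01)
        hl1 hS.ho hS.hK hez hS.E0.le hS.slt c N hN hc h.2.2 L hδ).trans (le_of_eq ?_)
      ring
  have hD' : ez * (s * 8 ^ K) = ez * s * 8 ^ K := by ring
  rw [hD'] at hDS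
  have hEE := end_raw D hS.cls hS.ho hS.slt hS.t0 hS.s0 hS.r1 hS.L1 hS.E0.le hez 12 12
  have hLm0 : 0 ≤ q.Lm := by
    unfold H401.Num.Lm
    exact Real.rpow_nonneg hS.t0.le _
  have hLm : q.Lm ≤ (q.t / r) ^ (-12 : ℝ) := by
    unfold H401.Num.Lm
    have h1 : q.t ^ (-q.d) ≤ q.t ^ (-12 : ℝ) :=
      Real.rpow_le_rpow_of_exponent_ge hS.t0 hS.t1 (by linarith [hS.d1])
    refine h1.trans ?_
    rw [Real.div_rpow hS.t0.le hr0.le, Real.rpow_neg hr0.le (12 : ℝ), div_inv_eq_mul]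
    exact le_mul_of_one_le_right (Real.rpow_nonneg hS.t0.le _)
      (Real.one_le_rpow hS.r1 (by norm_num))
  obtain ⟨sx, hs1, hsn, hR⟩ := hS.slt.sgn
  have hcst : (cst q).L = q.L := rfl
  unfold cAf
  rw [hcst]
  refine raw_af (j := 30) hP hy (by positivity) (by positivity) hb hS.E0.le hD0
    (by linarith [hS.κ1]) (by norm_num) hLm hLm hDS hEE (fun L => ?_)
  exact H124.af_all D hS.hK hez hLm0 hs0 (fun z hz y hy' => hS.cls.v_le z hz y hy') hS.cls.U_v2 hR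
    hS.slt.cap h hP hQ hSQ (fun k => k + c) N hN (fun k hk => ⟨Nat.le_add_right k c, hc k hk⟩) L
    le_rfl le_rfl

theorem le_div_mul {Y P : ℝ} (hP : 0 ≤ P) : Y ≤ (1 + P) * (Y / (1 + P)) := by
  have h : (1 + P) ≠ 0 := by linarith
  rw [mul_div_cancel₀ _ h]

/-- **The field `af`.** -/
theorem fld_af : RawField FAf := by
  refine ⟨3 + 1, 12, 12, cAf, ?_⟩
  intro ι _ _ q n ez F1 F2 F3 o K x s r U g u v A b C R κ E hS h _ S Q P hP hQ hSQ
  exact ⟨_, af_core hS h hP hQ hSQ 0 K le_rfl (fun k hk => hk.le), le_div_mul hP⟩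

/-- **The field `afL`.** -/
theorem fld_afL : RawField FAfL := by
  refine ⟨3 + 1, 12, 12, cAf, ?_⟩
  intro ι _ _ q n ez F1 F2 F3 o K x s r U g u v A b C R κ E hS h _ l S Q P hP hQ hSQ
  have H := af_core hS h hP hQ hSQ (1 + l) (K - l) (Nat.sub_le _ _) (fun k hk => by omega)
  have e : ∀ k : ℕ, k + (1 + l) = k + 1 + l := fun k => by omega
  simp only [e] at H
  exact ⟨_, H, le_div_mul hP⟩

end

end Vale.Agent.P141.H54
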