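import Vale.Agent.P141.H677.SlotR
import Vale.Agent.P141.H483.QSh
import Vale.Agent.P141.H871.Aff

/-!
# P141, line (A): the end numbers of a slot at class data

`R` a slot `SlotN` on the root `M = cx K p`, `v'` the vectors of the data (`v` or `0`).

* `slot_cut` : the signs of a slot vanish off the root;
* `mass_v` : the mass of `v` on the root;
* `end_signed` : the end energy of the slot against `v'`, number `E`;
* `end_blind` : the same with the gain `P / l` of the class.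
-/

namespace Vale.Agent.P141.H54

open Finset Matrix
open Vale.Agent.P141.PL (Pt iv ix mem_iv cb mem_cb cx card_iv ix_ix)
open Vale.Agent.P141.PL.H315 (Tri)
open Vale.Agent.P141.H43 (nsq nsq_nonneg)
open Vale.Agent.P141.H677 (KT GT MT sN rt)
open Vale.Agent.P141.H677.Sk (Slt FamA FamV SlotN FDs Raw)
open Vale.Agent.P141.H305 (ClsM)
open Vale.Agent.P141.H483 (uc Qw Qw_nonneg Qw_hX Q_cls)

noncomputable section

open scoped Classical

set_option linter.unusedSectionVars false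

variable {ι : Type} [Fintype ι] [DecidableEq ι]

/-- the signs of a slot vanish off the root -/
theorem slot_cut {Al : ℕ → Pt → Prop} {o : ℤ} {K : ℕ} {M : Pt} {s : ℕ → ℤ → ℤ → ℝ} {x1 : ℤ}
    (h : ∀ k a b, ((b, o - 2 - a - ix k x1 - b, ix k x1) : Pt) ∉ sN Al o K M (2 ^ k * a) k →
      s k a b = 0) (k : ℕ) (a b : ℤ) (_ : k + 1 ≤ K)
    (hm : ix (K - (k + 1)) (o - 2 - a - ix (k + 1) x1 - b) ≠ M.2.1) : s (k + 1) a b = 0 := by
  refine h (k + 1) a b fun h0 => hm ?_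
  have h1 := H677.sN_sub _ _ _ _ _ _ h0
  unfold PL.H804.bx3 at h1
  exact mem_iv.1 (mem_product.1 (mem_product.1 (mem_filter.1 h1).1).2).1

theorem nsq_or {v v' : ℤ → ℤ → ι → ℝ} (h : ∀ x z, v' x z = v x z ∨ v' x z = 0) (x z : ℤ) :
    nsq (v' x z) ≤ nsq (v x z) := by
  rcases h x z with e | e
  · rw [e]
  · rw [e, H841.nsq_zero]
    exact nsq_nonneg _

/-- the mass of `v` on the root -/
theorem mass_v {K : ℕ} {p : Pt} {s r P : ℝ} {U : Tri} {g : ℤ → ℤ → ℝ} {u v : ℤ → ℤ → ι → ℝ}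
    (h : H305.Cls K p s r P U g u v) :
    ∑ x ∈ iv K (cx K p).1, ∑ z ∈ iv K (cx K p).2.2, nsq (v x z) ≤ s * 4 ^ K := by
  have h3 := h.U_v2
  unfold PL.H315.A2 PL.H315.avg at h3
  have e1 : ((PL.H315.iv K p.1).card : ℝ) = 2 ^ K := by
    rw [PL.H315.card_iv]; push_cast; rfl
  have e2 : ((PL.H315.iv K p.2.2).card : ℝ) = 2 ^ K := by
    rw [PL.H315.card_iv]; push_cast; rfl
  rw [card_product, Nat.cast_mul, e1, e2, inv_mul_le_iff₀ (by positivity), sum_product] at h3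
  have h4 : ∑ x ∈ iv K (cx K p).1, ∑ z ∈ iv K (cx K p).2.2, nsq (v x z) ≤
      ∑ x ∈ PL.H315.iv K p.1, ∑ z ∈ PL.H315.iv K p.2.2, U.2.1 (x, z) ^ 2 :=
    sum_le_sum fun x hx => sum_le_sum fun z hz => h.v_le x hx z hz
  refine h4.trans (h3.trans (le_of_eq ?_))
  have e8 : (4 : ℝ) ^ K = 2 ^ K * 2 ^ K := by rw [← mul_pow]; norm_num
  rw [e8]
  ring

section slot

variable {Al : ℕ → Pt → Prop} {o : ℤ} {K : ℕ} {p : Pt} {l s r P κ E : ℝ} {U : Tri}
  {g : ℤ → ℤ → ℝ} {u v v' : ℤ → ℤ → ι → ℝ} {R : Slt ι}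

/-- **The end energy of the slot, number `E`.** -/
theorem end_signed (hR : SlotN Al o K (cx K p) l u R κ E) (h : H305.Cls K p s r P U g u v)
    (hv : ∀ x z, v' x z = v x z ∨ v' x z = 0) (hE : 0 ≤ E) (T : Finset ℤ) :
    ∑ t ∈ T, ∑ x ∈ iv K (cx K p).1, ∑ z ∈ iv K (cx K p).2.2, ∑ x0 ∈ iv K t,
      nsq (R x0 0 z x *ᵥ v' x z) ≤ E * s * 8 ^ K := by
  have h1 : ∑ t ∈ T, ∑ x ∈ iv K (cx K p).1, ∑ z ∈ iv K (cx K p).2.2, ∑ x0 ∈ iv K t,
      nsq (R x0 0 z x *ᵥ v' x z) = ∑ x ∈ iv K (cx K p).1, ∑ z ∈ iv K (cx K p).2.2,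
        ∑ t ∈ T, ∑ x0 ∈ iv K t, nsq (R x0 0 z x *ᵥ v' x z) := by
    rw [sum_comm]
    refine sum_congr rfl fun x _ => ?_
    rw [sum_comm]
  rw [h1]
  have h2 : ∀ x ∈ iv K (cx K p).1, ∀ z ∈ iv K (cx K p).2.2,
      ∑ t ∈ T, ∑ x0 ∈ iv K t, nsq (R x0 0 z x *ᵥ v' x z) ≤ 2 ^ K * E * nsq (v x z) := by
    intro x hx z _
    refine (hR.en T z x hx (v' x z)).trans ?_
    rw [← mul_assoc]
    exact mul_le_mul_of_nonneg_left (nsq_or hv x z) (by positivity)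
  refine (sum_le_sum fun x hx => sum_le_sum fun z hz => h2 x hx z hz).trans ?_
  simp only [← mul_sum]
  refine (mul_le_mul_of_nonneg_left (mass_v h) (by positivity)).trans (le_of_eq ?_)
  have e8 : (8 : ℝ) ^ K = 2 ^ K * 4 ^ K := by rw [← mul_pow]; norm_num
  rw [e8]
  ring

/-- one root of `x0` -/
theorem end_blind1 (hl : 0 < l) (ho : o = 1 ∨ o = -1) (hR : SlotN Al o K (cx K p) l u R κ E)
    (h : H305.Cls K p s r P U g u v) (hP : 0 ≤ P) (hv : ∀ x z, v' x z = v x z ∨ v' x z = 0)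
    (t : ℤ) :
    ∑ x ∈ iv K (cx K p).1, ∑ z ∈ iv K (cx K p).2.2, ∑ x0 ∈ iv K t,
      nsq (R x0 0 z x *ᵥ v' x z) ≤ (2 * l)⁻¹ * P * s * 8 ^ K := by
  obtain ⟨sx, hs1, hs0, hRm⟩ := hR.sgn
  refine le_trans ?_ (Q_cls hl h hP t)
  rw [mul_sum]
  refine sum_le_sum fun x _ => ?_
  rw [mul_sum]
  refine sum_le_sum fun z hz => ?_
  have hz' : ix K z = (cx K p).2.2 := mem_iv.1 hz
  have h1 : ∑ x0 ∈ iv K t, nsq (R x0 0 z x *ᵥ v' x z) ≤
      2 ^ K * Qw l K (uc K (cx K p).2.1 u) t x (cx K p).2.2 (v' x z) := by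
    have h2 : ∀ x0, R x0 0 z x =
        H841.Rm (MT l (KT l (uc K (cx K p).2.1 u) x)) o x (sx x) K 0 x0 z := by
      intro x0
      rw [hRm, H483.Rm_cut (M2 := (cx K p).2.1) (slot_cut (hs0 x))]
    simp only [h2]
    exact (H871.Rm_end (hs1 x) ho z hz' (v' x z)).trans (Qw_hX hl K _ t x _ _)
  refine h1.trans (mul_le_mul_of_nonneg_left ?_ (by positivity))
  rcases hv x z with e | e
  · rw [e]
  · rw [e]
    refine le_trans (le_of_eq ?_) (Qw_nonneg hl K _ t x _ (v x z))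
    unfold Qw
    simp

/-- **The end energy of the slot, gain of the class.** -/
theorem end_blind (hl : 0 < l) (ho : o = 1 ∨ o = -1) (hR : SlotN Al o K (cx K p) l u R κ E)
    (h : H305.Cls K p s r P U g u v) (hP : 0 ≤ P) (hv : ∀ x z, v' x z = v x z ∨ v' x z = 0) :
    ∑ t ∈ rt (cx K p), ∑ x ∈ iv K (cx K p).1, ∑ z ∈ iv K (cx K p).2.2, ∑ x0 ∈ iv K t,
      nsq (R x0 0 z x *ᵥ v' x z) ≤ 3 * ((2 * l)⁻¹ * P * s * 8 ^ K) := by
  refine (sum_le_sum fun t _ => end_blind1 hl ho hR h hP hv t).trans (le_of_eq ?_)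
  have hc : (rt (cx K p)).card = 3 := by
    unfold H677.rt
    rw [Int.card_Icc]
    omega
  rw [sum_const, hc, nsmul_eq_mul]
  push_cast
  ring

end slot

/-! ### The data of the flow part -/

section data

variable {q : H401.Num} {n : ℕ} {ez : ℝ} {F1 F2 F3 : ℕ → Pt → ℝ} {K : ℕ} {x : Pt} {s r κf : ℝ}
  {U : Tri} {g : ℤ → ℤ → ℝ} {u v : ℤ → ℤ → ι → ℝ} {A : FamA} {b C : FamV ι}
  {Q1 Q2 Q3 : ℕ → Pt → Prop} {v' : ℤ → ℤ → ι → ℝ} {o : ℤ} {R : Slt ι} {κ E : ℝ}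

/-- **The end energy in the raw shape.** -/
theorem end_raw (D : FDs q n ez F1 F2 F3 K x s r U g u v A b C Q1 Q2 Q3 v')
    (h : ClsM K x s r (q.L * q.t ^ (2 - q.c) * √s) κf U g u v) (ho : o = 1 ∨ o = -1)
    (hR : SlotN (q.al U K) o K (cx K x) (q.lam s r) u R κ E) (ht : 0 < q.t) (hs : 0 < s)
    (hr : 1 ≤ r) (hL : 1 ≤ q.L) (hE : 0 ≤ E) (hez : 0 ≤ ez) (C0 C1 : ℝ) :
    Raw 0 C0 C1 (2 * q.L) (q.t ^ (-q.c)) (q.t / r) q.e0 κ E (ez * s * 8 ^ K)
      (ez * ∑ t ∈ rt (cx K x), ∑ x1 ∈ iv K (cx K x).1, ∑ z ∈ iv K (cx K x).2.2, ∑ x0 ∈ iv K t,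
        nsq (R x0 0 z x1 *ᵥ v' x1 z)) := by
  have hr0 : 0 < r := by linarith
  have hy : 0 < q.t / r := div_pos ht hr0
  have hb : 0 < q.t ^ (-q.c) := Real.rpow_pos_of_pos ht _
  have hye : 0 < (q.t / r) ^ q.e0 := Real.rpow_pos_of_pos hy _
  have hD : 0 ≤ ez * s * 8 ^ K := by positivity
  have hl : 0 < q.lam s r := H401.Num.lam_pos ht hs hr
  refine ⟨fun L => ?_, fun L δ hδ => ?_⟩
  · have hP : 0 ≤ q.L * q.t ^ (2 - q.c) * √s := by
      have := Real.rpow_pos_of_pos ht (2 - q.c)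
      positivity
    have h1 := end_blind hl ho hR h.toCls hP D.v_or
    have h2 : (2 * q.lam s r)⁻¹ * (q.L * q.t ^ (2 - q.c) * √s) =
        q.L / 2 * (q.t ^ (-q.c) * (q.t / r) ^ q.e0) := by
      rw [← H677.Sk.m_eq ht hs hr, div_eq_mul_inv]
      ring
    rw [h2] at h1
    have h3 : 0 ≤ (1 + κ) ^ 2 * (q.t / r) ^ (-C0) / 2 ^ L := by
      have := Real.rpow_pos_of_pos hy (-C0)
      positivity
    have h4 : ez * (3 * (q.L / 2 * (q.t ^ (-q.c) * (q.t / r) ^ q.e0) * s * 8 ^ K)) ≤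
        ez * s * 8 ^ K * (q.t ^ (-q.c) * (2 * q.L) * (q.t / r) ^ q.e0) := by
      have h5 : 0 ≤ ez * s * 8 ^ K * (q.t ^ (-q.c) * q.L * (q.t / r) ^ q.e0) := by positivity
      linarith
    refine (mul_le_mul_of_nonneg_left h1 hez).trans (h4.trans ?_)
    refine mul_le_mul_of_nonneg_left ?_ hD
    rw [pow_zero, one_mul]
    linarith
  · have h1 := end_signed hR h.toCls D.v_or hE (rt (cx K x))
    have h3 : 0 ≤ (1 + κ) ^ 2 * (q.t / r) ^ (-C1) * (1 + 1 / δ) / 2 ^ L := by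
      have := Real.rpow_pos_of_pos hy (-C1)
      positivity
    have h4 : 0 ≤ (q.t / r) ^ (-C1) * E / δ := by
      have := Real.rpow_pos_of_pos hy (-C1)
      positivity
    have h5 : 0 ≤ 2 * q.L * δ := by positivity
    refine (mul_le_mul_of_nonneg_left h1 hez).trans ?_
    have h6 : ez * (E * s * 8 ^ K) = ez * s * 8 ^ K * E := by ring
    rw [h6]
    refine mul_le_mul_of_nonneg_left ?_ hD
    rw [pow_zero, one_mul]
    have h7 : E ≤ 2 * q.L * E := le_mul_of_one_le_left hE (by linarith)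
    linarith

end data

end

end Vale.Agent.P141.H54
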