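import Vale.Agent.P141.H677.SlotR

/-!
# P141, line (A): the raw shape, real numbers

* `raw_absorb` : constants of the far terms and of the term `E / δ` are absorbed;
* `raw_af` : the scalar end of the affected points (`H124.af_all`).
-/

namespace Vale.Agent.P141.H54

open Vale.Agent.P141.H677.Sk (Raw)

/-- **Constants of the far terms and of the term `E / δ` absorbed.** -/
theorem raw_absorb {q : ℕ} {C0 C1 A b y e0 κ E D X c : ℝ} (hy : 0 < y) (hA : 0 ≤ A) (hb : 0 ≤ b)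
    (hE : 0 ≤ E) (hD : 0 ≤ D) (hc : 1 ≤ c) (j : ℕ) (hj : c * (1 + j) ^ q ≤ 2 ^ j)
    (h1 : ∀ L : ℕ, X ≤ D * ((1 + L) ^ q * (b * A * y ^ e0 +
      c * ((1 + κ) ^ 2 * y ^ (-C0) / 2 ^ L))))
    (h2 : ∀ (L : ℕ) (δ : ℝ), 0 < δ → X ≤ D * ((1 + L) ^ q * (A * δ + c * (y ^ (-C1) * E / δ) +
      A * E + c * ((1 + κ) ^ 2 * y ^ (-C1) * (1 + 1 / δ) / 2 ^ L)))) :
    Raw q C0 C1 (c * (1 + j) ^ (2 * q) * A) b y e0 κ E D X := by
  have hj1 : (1 : ℝ) ≤ (1 + j) ^ q := one_le_pow₀ (by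
    have : (0 : ℝ) ≤ j := Nat.cast_nonneg j
    linarith)
  have hye : 0 < y ^ e0 := Real.rpow_pos_of_pos hy _
  have hy0 : 0 < y ^ (-C0) := Real.rpow_pos_of_pos hy _
  have hy1 : 0 < y ^ (-C1) := Real.rpow_pos_of_pos hy _
  have hLj : ∀ L : ℕ, (1 + ((L + j : ℕ) : ℝ)) ^ q ≤ (1 + j) ^ q * (1 + L) ^ q := by
    intro L
    rw [← mul_pow]
    refine pow_le_pow_left₀ (by positivity) ?_ q
    push_cast
    have h3 : (0 : ℝ) ≤ j := Nat.cast_nonneg j
    have h4 : (0 : ℝ) ≤ L := Nat.cast_nonneg L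
    nlinarith [mul_nonneg h3 h4]
  have hJ : (0 : ℝ) < (1 + j) ^ q := by positivity
  have hcJ : 1 ≤ c * (1 + (j : ℝ)) ^ (2 * q) := by
    have h3 : (1 : ℝ) ≤ (1 + j) ^ (2 * q) := one_le_pow₀ (by
      have : (0 : ℝ) ≤ j := Nat.cast_nonneg j
      linarith)
    nlinarith
  have hpw : (1 + (j : ℝ)) ^ (2 * q) = (1 + j) ^ q * (1 + j) ^ q := by
    rw [two_mul, pow_add]
  have h2j : (0 : ℝ) < 2 ^ j := by positivity
  refine ⟨fun L => ?_, fun L δ hδ => ?_⟩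
  · refine (h1 (L + j)).trans (mul_le_mul_of_nonneg_left ?_ hD)
    have hL : (0 : ℝ) < (1 + L) ^ q := by positivity
    have h2L : (0 : ℝ) < 2 ^ L := by positivity
    have hF : 0 ≤ (1 + κ) ^ 2 * y ^ (-C0) / 2 ^ L := by positivity
    have e1 : (1 + κ) ^ 2 * y ^ (-C0) / 2 ^ (L + j) =
        (1 + κ) ^ 2 * y ^ (-C0) / 2 ^ L / 2 ^ j := by
      rw [pow_add]
      field_simp
    rw [e1]
    generalize (1 + κ) ^ 2 * y ^ (-C0) / 2 ^ L = F at *
    have hin : 0 ≤ b * A * y ^ e0 + c * (F / 2 ^ j) := by positivity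
    refine (mul_le_mul_of_nonneg_right (hLj L) hin).trans ?_
    have e2 : (1 + (j : ℝ)) ^ q * (1 + L) ^ q * (b * A * y ^ e0 + c * (F / 2 ^ j)) =
        (1 + L) ^ q * ((1 + (j : ℝ)) ^ q * (b * A * y ^ e0) +
          c * (1 + (j : ℝ)) ^ q / 2 ^ j * F) := by
      ring
    rw [e2]
    refine mul_le_mul_of_nonneg_left (add_le_add ?_ ?_) hL.le
    · have e3 : b * (c * (1 + (j : ℝ)) ^ (2 * q) * A) * y ^ e0 =
          c * (1 + (j : ℝ)) ^ (2 * q) * (b * A * y ^ e0) := by ring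
      rw [e3]
      refine mul_le_mul_of_nonneg_right ?_ (by positivity)
      rw [hpw]
      nlinarith [mul_le_mul_of_nonneg_left hj1 hJ.le]
    · refine mul_le_of_le_one_left hF ?_
      rw [div_le_one h2j]
      exact hj
  · have hδ' : 0 < c * (1 + (j : ℝ)) ^ q * δ := by positivity
    refine (h2 (L + j) _ hδ').trans (mul_le_mul_of_nonneg_left ?_ hD)
    have hL : (0 : ℝ) < (1 + L) ^ q := by positivity
    have h2L : (0 : ℝ) < 2 ^ L := by positivity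
    have hcj : 1 ≤ c * (1 + (j : ℝ)) ^ q := by nlinarith
    have hinv : 1 / (c * (1 + (j : ℝ)) ^ q * δ) ≤ 1 / δ :=
      one_div_le_one_div_of_le hδ (le_mul_of_one_le_left hδ.le hcj)
    have e1 : (1 + κ) ^ 2 * y ^ (-C1) * (1 + 1 / (c * (1 + (j : ℝ)) ^ q * δ)) / 2 ^ (L + j) ≤
        (1 + κ) ^ 2 * y ^ (-C1) * (1 + 1 / δ) / 2 ^ L / 2 ^ j := by
      rw [pow_add, div_div]
      refine div_le_div_of_nonneg_right ?_ (by positivity)
      exact mul_le_mul_of_nonneg_left (by linarith) (by positivity)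
    have hF : 0 ≤ (1 + κ) ^ 2 * y ^ (-C1) * (1 + 1 / δ) / 2 ^ L := by positivity
    have e4 : c * (y ^ (-C1) * E / (c * (1 + (j : ℝ)) ^ q * δ)) =
        y ^ (-C1) * E / δ / (1 + (j : ℝ)) ^ q := by
      field_simp
    rw [e4]
    generalize (1 + κ) ^ 2 * y ^ (-C1) * (1 + 1 / δ) / 2 ^ L = F at *
    have hG : 0 ≤ y ^ (-C1) * E / δ := by positivity
    generalize y ^ (-C1) * E / δ = G at *
    have hin : 0 ≤ A * (c * (1 + (j : ℝ)) ^ q * δ) + G / (1 + (j : ℝ)) ^ q + A * E +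
        c * ((1 + κ) ^ 2 * y ^ (-C1) * (1 + 1 / (c * (1 + (j : ℝ)) ^ q * δ)) / 2 ^ (L + j)) := by
      positivity
    refine (mul_le_mul_of_nonneg_right (hLj L) hin).trans ?_
    have h5 : (1 + (j : ℝ)) ^ q * (1 + L) ^ q * (A * (c * (1 + (j : ℝ)) ^ q * δ) +
        G / (1 + (j : ℝ)) ^ q + A * E +
        c * ((1 + κ) ^ 2 * y ^ (-C1) * (1 + 1 / (c * (1 + (j : ℝ)) ^ q * δ)) / 2 ^ (L + j))) ≤
        (1 + (j : ℝ)) ^ q * (1 + L) ^ q * (A * (c * (1 + (j : ℝ)) ^ q * δ) +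
        G / (1 + (j : ℝ)) ^ q + A * E + c * (F / 2 ^ j)) := by
      refine mul_le_mul_of_nonneg_left ?_ (by positivity)
      have := mul_le_mul_of_nonneg_left e1 (by linarith : (0 : ℝ) ≤ c)
      linarith
    refine h5.trans ?_
    have e2 : (1 + (j : ℝ)) ^ q * (1 + L) ^ q * (A * (c * (1 + (j : ℝ)) ^ q * δ) +
        G / (1 + (j : ℝ)) ^ q + A * E + c * (F / 2 ^ j)) =
        (1 + L) ^ q * (c * ((1 + (j : ℝ)) ^ q * (1 + (j : ℝ)) ^ q) * A * δ + G +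
          (1 + (j : ℝ)) ^ q * (A * E) + c * (1 + (j : ℝ)) ^ q / 2 ^ j * F) := by
      field_simp
    rw [e2, ← hpw]
    refine mul_le_mul_of_nonneg_left (add_le_add (add_le_add le_rfl ?_) ?_) hL.le
    · have e3 : c * (1 + (j : ℝ)) ^ (2 * q) * A * E =
          c * (1 + (j : ℝ)) ^ (2 * q) * (A * E) := by ring
      rw [e3]
      refine mul_le_mul_of_nonneg_right ?_ (by positivity)
      rw [hpw]
      nlinarith [mul_le_mul_of_nonneg_left hj1 hJ.le]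
    · refine mul_le_of_le_one_left hF ?_
      rw [div_le_one h2j]
      exact hj

/-- **The scalar end of the affected points.** `DS` the deviations, `EE` the end energy, the tail
with the mass number `Lm`; the level `L` of the affected count is the level of the raw shape. -/
theorem raw_af {q j : ℕ} {C0 C1 A A1 b y e0 κ E D DS EE Y P Lm : ℝ} (hP : 0 ≤ P) (hy : 0 < y)
    (hA : 0 ≤ A) (hA1 : 0 ≤ A1) (hb : 0 ≤ b) (hE : 0 ≤ E) (hD : 0 ≤ D) (hκ : 0 ≤ κ)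
    (hj : 42 * (1 + (j : ℝ)) ^ (q + 1) ≤ 2 ^ j) (h0 : Lm ≤ y ^ (-C0))
    (h1 : Lm ≤ y ^ (-C1)) (hDS : Raw q C0 C1 A b y e0 κ E D DS)
    (hEE : Raw 0 C0 C1 A1 b y e0 κ E D EE)
    (hY : ∀ L : ℕ, Y ≤ (1 + P) * (2 * DS + 8 * (1 + 2 * L) * EE +
      24 * (Lm * κ ^ 2) * (1 / 2) ^ L * D)) :
    Raw (q + 1) C0 C1 (42 * (1 + j) ^ (2 * (q + 1)) * (2 * A + 16 * A1)) b y e0 κ E D
      (Y / (1 + P)) := by
  have hP1 : 0 < 1 + P := by linarith
  have hX : ∀ L : ℕ, Y / (1 + P) ≤ 2 * DS + 8 * (1 + 2 * L) * EE +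
      24 * (Lm * κ ^ 2) * (1 / 2) ^ L * D := fun L => by
    rw [div_le_iff₀ hP1]
    refine (hY L).trans (le_of_eq ?_)
    ring
  have hκ2 : κ ^ 2 ≤ (1 + κ) ^ 2 := pow_le_pow_left₀ hκ (by linarith) 2
  have hye : 0 < y ^ e0 := Real.rpow_pos_of_pos hy _
  have hy0 : 0 < y ^ (-C0) := Real.rpow_pos_of_pos hy _
  have hy1 : 0 < y ^ (-C1) := Real.rpow_pos_of_pos hy _
  refine raw_absorb (c := 42) hy (by positivity) hb hE hD (by norm_num) j hj (fun L => ?_)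
    (fun L δ hδ => ?_)
  · refine (hX L).trans ?_
    have b1 := hDS.blind L
    have b2 := hEE.blind L
    rw [pow_zero, one_mul] at b2
    have hLL : (1 : ℝ) ≤ 1 + L := by
      have : (0 : ℝ) ≤ L := Nat.cast_nonneg L
      linarith
    have hG : 0 < (1 + (L : ℝ)) ^ q := by positivity
    have hG1 : 1 ≤ (1 + (L : ℝ)) ^ q := one_le_pow₀ hLL
    have e2 : ((1 : ℝ) / 2) ^ L = 1 / 2 ^ L := by rw [one_div_pow]
    have h2L : (0 : ℝ) < 2 ^ L := by positivity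
    have t1 : 24 * (Lm * κ ^ 2) * (1 / 2) ^ L * D ≤
        D * (24 * ((1 + κ) ^ 2 * y ^ (-C0) / 2 ^ L)) := by
      have t2 : Lm * κ ^ 2 ≤ (1 + κ) ^ 2 * y ^ (-C0) := by
        rw [mul_comm ((1 + κ) ^ 2)]
        exact mul_le_mul h0 hκ2 (by positivity) hy0.le
      have t3 : Lm * κ ^ 2 * (1 / 2) ^ L ≤ (1 + κ) ^ 2 * y ^ (-C0) / 2 ^ L := by
        rw [e2, mul_one_div]
        exact div_le_div_of_nonneg_right t2 h2L.le
      have t4 := mul_le_mul_of_nonneg_right t3 hD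
      calc _ = 24 * (Lm * κ ^ 2 * (1 / 2) ^ L * D) := by ring
        _ ≤ 24 * ((1 + κ) ^ 2 * y ^ (-C0) / 2 ^ L * D) :=
            mul_le_mul_of_nonneg_left t4 (by norm_num)
        _ = _ := by ring
    have hF : 0 ≤ (1 + κ) ^ 2 * y ^ (-C0) / 2 ^ L := by positivity
    generalize (1 + κ) ^ 2 * y ^ (-C0) / 2 ^ L = F at *
    have hM : 0 ≤ b * y ^ e0 := by positivity
    have eM : ∀ a : ℝ, b * a * y ^ e0 = a * (b * y ^ e0) := fun a => by ring
    rw [eM] at b1 b2 ⊢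
    generalize b * y ^ e0 = M at *
    have hB2 : 0 ≤ D * (A1 * M + F) := by positivity
    have t5 : 8 * (1 + 2 * (L : ℝ)) * EE ≤ 16 * (1 + L) * (D * (A1 * M + F)) := by
      have t6 : 8 * (1 + 2 * (L : ℝ)) * EE ≤ 8 * (1 + 2 * (L : ℝ)) * (D * (A1 * M + F)) :=
        mul_le_mul_of_nonneg_left b2 (by positivity)
      refine t6.trans (mul_le_mul_of_nonneg_right (by linarith) hB2)
    have t7 : 16 * (1 + (L : ℝ)) * (D * (A1 * M + F)) ≤
        16 * ((1 + (L : ℝ)) ^ (q + 1)) * (D * (A1 * M + F)) := by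
      refine mul_le_mul_of_nonneg_right ?_ hB2
      rw [pow_succ]
      nlinarith
    have t8 : 2 * DS ≤ 2 * (D * ((1 + (L : ℝ)) ^ (q + 1) * (A * M + F))) := by
      refine mul_le_mul_of_nonneg_left (b1.trans ?_) (by norm_num)
      refine mul_le_mul_of_nonneg_left ?_ hD
      refine mul_le_mul_of_nonneg_right ?_ (by positivity)
      exact pow_le_pow_right₀ hLL (Nat.le_succ q)
    have t9 : D * (24 * F) ≤ D * ((1 + (L : ℝ)) ^ (q + 1) * (24 * F)) := by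
      refine mul_le_mul_of_nonneg_left ?_ hD
      exact le_mul_of_one_le_left (by positivity) (one_le_pow₀ hLL)
    calc _ ≤ 2 * (D * ((1 + (L : ℝ)) ^ (q + 1) * (A * M + F))) +
          16 * ((1 + (L : ℝ)) ^ (q + 1)) * (D * (A1 * M + F)) +
          D * ((1 + (L : ℝ)) ^ (q + 1) * (24 * F)) := by linarith
      _ = _ := by ring
  · refine (hX L).trans ?_
    have b1 := hDS.signed L δ hδ
    have b2 := hEE.signed L δ hδ
    rw [pow_zero, one_mul] at b2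
    have hLL : (1 : ℝ) ≤ 1 + L := by
      have : (0 : ℝ) ≤ L := Nat.cast_nonneg L
      linarith
    have hG : 0 < (1 + (L : ℝ)) ^ q := by positivity
    have hG1 : 1 ≤ (1 + (L : ℝ)) ^ q := one_le_pow₀ hLL
    have e2 : ((1 : ℝ) / 2) ^ L = 1 / 2 ^ L := by rw [one_div_pow]
    have h2L : (0 : ℝ) < 2 ^ L := by positivity
    have hδ1 : 1 ≤ 1 + 1 / δ := by
      have : 0 < 1 / δ := by positivity
      linarith
    have t1 : 24 * (Lm * κ ^ 2) * (1 / 2) ^ L * D ≤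
        D * (24 * ((1 + κ) ^ 2 * y ^ (-C1) * (1 + 1 / δ) / 2 ^ L)) := by
      have t2 : Lm * κ ^ 2 ≤ (1 + κ) ^ 2 * y ^ (-C1) * (1 + 1 / δ) := by
        refine le_trans ?_ (le_mul_of_one_le_right (by positivity) hδ1)
        rw [mul_comm ((1 + κ) ^ 2)]
        exact mul_le_mul h1 hκ2 (by positivity) hy1.le
      have t3 : Lm * κ ^ 2 * (1 / 2) ^ L ≤ (1 + κ) ^ 2 * y ^ (-C1) * (1 + 1 / δ) / 2 ^ L := by
        rw [e2, mul_one_div]
        exact div_le_div_of_nonneg_right t2 h2L.le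
      have t4 := mul_le_mul_of_nonneg_right t3 hD
      calc _ = 24 * (Lm * κ ^ 2 * (1 / 2) ^ L * D) := by ring
        _ ≤ 24 * ((1 + κ) ^ 2 * y ^ (-C1) * (1 + 1 / δ) / 2 ^ L * D) :=
            mul_le_mul_of_nonneg_left t4 (by norm_num)
        _ = _ := by ring
    have hF : 0 ≤ (1 + κ) ^ 2 * y ^ (-C1) * (1 + 1 / δ) / 2 ^ L := by positivity
    generalize (1 + κ) ^ 2 * y ^ (-C1) * (1 + 1 / δ) / 2 ^ L = F at *
    have hM : 0 ≤ y ^ (-C1) * E / δ := by positivity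
    generalize y ^ (-C1) * E / δ = M at *
    have hB2 : 0 ≤ D * (A1 * δ + M + A1 * E + F) := by positivity
    have t5 : 8 * (1 + 2 * (L : ℝ)) * EE ≤ 16 * (1 + L) * (D * (A1 * δ + M + A1 * E + F)) := by
      have t6 : 8 * (1 + 2 * (L : ℝ)) * EE ≤
          8 * (1 + 2 * (L : ℝ)) * (D * (A1 * δ + M + A1 * E + F)) :=
        mul_le_mul_of_nonneg_left b2 (by positivity)
      refine t6.trans (mul_le_mul_of_nonneg_right (by linarith) hB2)
    have t7 : 16 * (1 + (L : ℝ)) * (D * (A1 * δ + M + A1 * E + F)) ≤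
        16 * ((1 + (L : ℝ)) ^ (q + 1)) * (D * (A1 * δ + M + A1 * E + F)) := by
      refine mul_le_mul_of_nonneg_right ?_ hB2
      rw [pow_succ]
      nlinarith
    have t8 : 2 * DS ≤ 2 * (D * ((1 + (L : ℝ)) ^ (q + 1) * (A * δ + M + A * E + F))) := by
      refine mul_le_mul_of_nonneg_left (b1.trans ?_) (by norm_num)
      refine mul_le_mul_of_nonneg_left ?_ hD
      refine mul_le_mul_of_nonneg_right ?_ (by positivity)
      exact pow_le_pow_right₀ hLL (Nat.le_succ q)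
    have t9 : D * (24 * F) ≤ D * ((1 + (L : ℝ)) ^ (q + 1) * (24 * F)) := by
      refine mul_le_mul_of_nonneg_left ?_ hD
      exact le_mul_of_one_le_left (by positivity) (one_le_pow₀ hLL)
    have t10 : 0 ≤ D * ((1 + (L : ℝ)) ^ (q + 1) * (24 * M)) := by positivity
    calc _ ≤ 2 * (D * ((1 + (L : ℝ)) ^ (q + 1) * (A * δ + M + A * E + F))) +
          16 * ((1 + (L : ℝ)) ^ (q + 1)) * (D * (A1 * δ + M + A1 * E + F)) +
          D * ((1 + (L : ℝ)) ^ (q + 1) * (24 * F)) +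
          D * ((1 + (L : ℝ)) ^ (q + 1) * (24 * M)) := by linarith
      _ = _ := by ring

end Vale.Agent.P141.H54
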